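import Mathlib
import Vale.Agent.P209.Defs
import Vale.Agent.P209.Few

/-!
P209: symplectic packings of a ball of dimension `2 n` by at most `2 ^ n` balls of arbitrary
capacities.
-/

namespace Vale.Agent.Results.P209.FewBalls

open Vale.Agent.P209

/-- For every `n ≥ 1` and every collection of at most `2 ^ n` closed balls of dimension `2 n`
with capacities `r i < R` such that any two of them satisfy the two ball condition
`r i + r j < R`, the balls have a symplectic packing in the open ball of capacity `R`. -/
theorem result :
    ∀ n k : ℕ, 1 ≤ n → k ≤ 2 ^ n → ∀ (R : ℝ) (r : Fin k → ℝ),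
      (∀ i, 0 < r i) → (∀ i, r i < R) → (∀ i j, i ≠ j → r i + r j < R) →
        BallPacking n r R :=
  fun n k hn hk R r hpos hlt hpair => few_balls n k hn hk R r hpos hlt hpair

end Vale.Agent.Results.P209.FewBalls
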