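import Mathlib
import Vale.Agent.P209.Defs
import Vale.Agent.P209.Few
import Vale.Agent.P209.Asymptotic

/-!
P209: symplectic packings of a ball of dimension `2 n`, for every `n`:
(1) by at most `2 ^ n` balls of arbitrary capacities;
(2) by at most `2 ^ n` large balls and arbitrarily many small balls, all of arbitrary capacities,
up to an arbitrarily small fraction of the volume.
-/

namespace Vale.Agent.Results.P209.FewLargeBalls

open Vale.Agent.P209

/-- (1) At most `2 ^ n` balls with the two ball condition can be packed.
(2) For every volume defect `η > 0` there is `δ > 0` such that every finite collection of balls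
which satisfies the two ball condition, has total volume at most `1 - η` times the volume of the
big ball, and contains at most `2 ^ n` balls of capacity greater than `δ * R`, can be packed. -/
theorem result :
    (∀ n k : ℕ, 1 ≤ n → k ≤ 2 ^ n → ∀ (R : ℝ) (r : Fin k → ℝ),
      (∀ i, 0 < r i) → (∀ i, r i < R) → (∀ i j, i ≠ j → r i + r j < R) →
        BallPacking n r R) ∧
    (∀ n : ℕ, 1 ≤ n → ∀ η : ℝ, 0 < η → ∃ δ : ℝ, 0 < δ ∧
      ∀ (k : ℕ) (R : ℝ) (r : Fin k → ℝ), 0 < R → (∀ i, 0 < r i) →
        (∀ i j, i ≠ j → r i + r j < R) →
        (Finset.univ.filter (fun i => δ * R < r i)).card ≤ 2 ^ n →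
        ∑ i, r i ^ n ≤ (1 - η) * R ^ n →
          BallPacking n r R) :=
  ⟨fun n k hn hk R r hpos hlt hpair => few_balls n k hn hk R r hpos hlt hpair,
    fun n hn _ hη => asymptotic_balls n hn hη⟩

end Vale.Agent.Results.P209.FewLargeBalls
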